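import Vale.Agent.P318.S.Read

/-!
# Layer A of P318 for lines given by additive homomorphisms

`Y` is a finite additive group of exponent two, `r : ι → F →+ Y` a family of additive
homomorphisms; the line through `y` with index `i` is `u ↦ y + r i u`.
-/

namespace Vale.Agent.P330.Q

open Finset
open Vale.Agent.P318.S (crv Low sgn ind CharBd fdist word)
open scoped BigOperators

section

variable {Y E ι : Type*} [AddCommGroup Y] [Fintype Y] [AddCommGroup E] [Fintype E] [Fintype ι]

/-- Mixing of the directions, for nonnegative functions. -/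
def Mix {F : Type*} [Field F] (r : ι → F →+ Y) (A lam : ℝ) : Prop :=
  ∀ g : Y → ℝ, (∀ y, 0 ≤ g y) → ∀ u : F, u ≠ 0 →
    𝔼 i : ι, 𝔼 y : Y, g y * g (y + r i u) ≤ A * (𝔼 y : Y, g y) ^ 2 + lam * 𝔼 y : Y, g y ^ 2

/-- The nontrivial characters are small on `i ↦ r i u`, for every `u ≠ 0`. -/
def Spr {F : Type*} [Field F] (r : ι → F →+ Y) (lam : ℝ) : Prop :=
  ∀ u : F, u ≠ 0 → CharBd (fun i => r i u) lam

variable {F : Type*} [Field F] [Fintype F] [Module F E]

/-- The sum of the table along the curve `C` in direction `r` from `y`. -/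
def tsum {D : ℕ} (τ : Y → E → ZMod 2) (r : F →+ Y) (y : Y) (C : Fin (D + 1) → E) : ZMod 2 :=
  ∑ u : F, τ (y + r u) (crv C u)

/-- Indicator that the curve test fails. -/
def bad {D : ℕ} (τ : Y → E → ZMod 2) (r : F →+ Y) (y : Y) (C : Fin (D + 1) → E) : ℝ :=
  ind (tsum τ r y C)

/-- Probability that the curve test in direction `r` through the table of `y` fails. -/
noncomputable def epsAt (D : ℕ) (τ : Y → E → ZMod 2) (r : F →+ Y) (y : Y) : ℝ :=
  𝔼 C : Fin (D + 1) → E, bad τ r y C

/-- Probability that the curve test in direction `r` fails. -/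
noncomputable def epsDir (D : ℕ) (τ : Y → E → ZMod 2) (r : F →+ Y) : ℝ :=
  𝔼 y : Y, epsAt D τ r y

/-- Probability that the curve test fails. -/
noncomputable def eps (D : ℕ) (r : ι → F →+ Y) (τ : Y → E → ZMod 2) : ℝ :=
  𝔼 i : ι, epsDir D τ (r i)

/-- Probability that the curve test fails, given that the curve passes through `(y, c)`. -/
noncomputable def del (D : ℕ) (r : ι → F →+ Y) (τ : Y → E → ZMod 2) (y : Y) (c : E) : ℝ :=
  𝔼 i : ι, 𝔼 C : Fin D → E, bad τ (r i) y (Fin.cons c C : Fin (D + 1) → E)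

end

/-! ### Reading a codeword -/

section read

variable {F Y ι ρ : Type*} [Field F] [Fintype F] [AddCommGroup Y] [Fintype Y]
  [Fintype ι] [Fintype ρ]

/-- The queries of a READ at the point `y` for the component vector `cst`: two curves, in the
directions `r (i 0)`, `r (i 1)`, with values `cst + c` and `c` at zero and otherwise random
coefficients `C 0`, `C 1`; the queried positions are those at `u ≠ 0`. -/
def rdPos {D : ℕ} (r : ι → F →+ Y) (y : Y) (cst : ρ → F) (i : Fin 2 → ι)
    (C : Fin 2 → Fin D → ρ → F) (c : ρ → F) (p : Fin 2 × {u : F // u ≠ 0}) : Y × (ρ → F) :=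
  (y + r (i p.1) (p.2 : F),
    crv (Fin.cons (if p.1 = 0 then cst + c else c) (C p.1) : Fin (D + 1) → ρ → F) (p.2 : F))

/-- The sum of the table over the queries of a READ. -/
def rdSum [DecidableEq F] {D : ℕ} (σ : Y → (ρ → F) → ZMod 2) (r : ι → F →+ Y) (y : Y)
    (cst : ρ → F) (i : Fin 2 → ι) (C : Fin 2 → Fin D → ρ → F) (c : ρ → F) : ZMod 2 :=
  ∑ p : Fin 2 × {u : F // u ≠ 0}, σ (rdPos r y cst i C c p).1 (rdPos r y cst i C c p).2

end read

end Vale.Agent.P330.Q
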