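import Vale.Agent.P330.Q.LTC.LTC

/-!
# The structure of the tables that pass all curve tests
-/

set_option linter.unusedSectionVars false

namespace Vale.Agent.P330.Q

open Finset Polynomial Vale.Agent.P318.S
open scoped BigOperators

section struct

variable {F Y E ρ : Type*} [Field F] [Fintype F] [DecidableEq F] [CharP F 2]
  [AddCommGroup Y] [AddCommGroup E] [Module F E]

omit [CharP F 2] in
/-- The tables are affine on the fibres. -/
theorem affine_of_tests {q D : ℕ} (hq : Fintype.card F = q) (hD : q ≤ 2 * D + 1)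
    (τ : Y → E → ZMod 2) (r : F →+ Y)
    (h : ∀ (y : Y) (C : Fin (D + 1) → E), tsum τ r y C = 0) (y : Y) (c c' : E) :
    τ y (c + c') + τ y c + τ y c' + τ y 0 = 0 := by
  obtain ⟨P, Q, hP, hQ, hP0, hQ0, hPQ⟩ := exists_two_poly hq hD
  have key : ∀ c c' : E, ∑ u : F, τ (y + r u) (P.eval u • c + Q.eval u • c') = 0 := by
    intro c c'
    have := h y ((fun j : Fin (D + 1) => P.coeff j • c) + fun j : Fin (D + 1) => Q.coeff j • c')
    rw [tsum] at this
    simpa only [crv_add, crv_coeff hP, crv_coeff hQ] using this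
  have h1 := key c c'
  have h2 := key c 0
  have h3 := key 0 c'
  have h4 := key 0 0
  have h5 : ∑ u : F, (τ (y + r u) (P.eval u • c + Q.eval u • c') +
      τ (y + r u) (P.eval u • c + Q.eval u • (0 : E)) +
      τ (y + r u) (P.eval u • (0 : E) + Q.eval u • c') +
      τ (y + r u) (P.eval u • (0 : E) + Q.eval u • (0 : E))) = 0 := by
    simp only [sum_add_distrib, h1, h2, h3, h4, add_zero]
  rw [Finset.sum_eq_single (0 : F)] at h5
  · simpa [hP0, hQ0] using h5
  · intro u _ hu
    rcases hPQ u hu with h6 | h6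
    · simp only [h6, zero_smul, smul_zero, zero_add]
      generalize τ (y + r u) (Q.eval u • c') = a
      generalize τ (y + r u) 0 = b
      revert a b; decide
    · simp only [h6, zero_smul, smul_zero, add_zero]
      generalize τ (y + r u) (P.eval u • c) = a
      generalize τ (y + r u) 0 = b
      revert a b; decide
  · simp

variable [Fintype ρ] [DecidableEq ρ]

/-- Structure theorem. -/
theorem struct (φ : F →+ ZMod 2) (hφ : φ ≠ 0) {q D : ℕ} (hq : Fintype.card F = q)
    (hD : q ≤ 2 * D + 1) (hDq : D + 2 ≤ q) {ι : Type*} (r : ι → F →+ Y) (τ : Y → (ρ → F) → ZMod 2)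
    (I : Finset ι) (hI : I.Nonempty)
    (h : ∀ i ∈ I, ∀ (y : Y) (C : Fin (D + 1) → ρ → F), tsum τ (r i) y C = 0) :
    ∃ (b : Y → ZMod 2) (s : Y → ρ → F), τ = word φ b s ∧
      (∀ i ∈ I, ∀ y, ∑ u : F, b (y + r i u) = 0) ∧
      ∀ i ∈ I, ∀ y, Low (q - 2 - D) fun u : F => s (y + r i u) := by
  obtain ⟨i0, hi0⟩ := hI
  have haff := affine_of_tests hq hD τ (r i0) (h i0 hi0)
  have h2 : ∀ a : ZMod 2, a + a = 0 := by decide
  let L : Y → (ρ → F) →+ ZMod 2 := fun y =>
    { toFun := fun c => τ y c + τ y 0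
      map_zero' := h2 _
      map_add' := fun c c' => by
        have := haff y c c'
        generalize τ y (c + c') = a1 at *
        generalize τ y c = a2 at *
        generalize τ y c' = a3 at *
        generalize τ y 0 = a4 at *
        revert a1 a2 a3 a4; decide }
  have hL : ∀ y (j : ρ), ∃ s : F, ∀ a, L y (Pi.single j a) = φ (a * s) := fun y j =>
    dual_surj φ hφ ((L y).comp (AddMonoidHom.single (fun _ : ρ => F) j))
  choose s hs using hL
  have hword : ∀ y c, τ y c = τ y 0 + φ (∑ j, c j * s y j) := by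
    intro y c
    have e1 : L y c = φ (∑ j, c j * s y j) := by
      have : c = ∑ j, Pi.single j (c j) := (Finset.univ_sum_single c).symm
      conv_lhs => rw [this]
      rw [map_sum, map_sum]
      exact sum_congr rfl fun j _ => hs y j _
    rw [← e1]
    show τ y c = τ y 0 + (τ y c + τ y 0)
    generalize τ y c = a
    generalize τ y 0 = b
    revert a b; decide
  have hb : ∀ i ∈ I, ∀ y, ∑ u : F, τ (y + r i u) 0 = 0 := by
    intro i hi y
    have := h i hi y 0
    simpa [tsum, crv] using this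
  refine ⟨fun y => τ y 0, s, ?_, hb, ?_⟩
  · funext y c
    exact hword y c
  · intro i hi y
    refine low_of_moments hq hDq _ fun j hj => ?_
    funext k
    rw [Finset.sum_apply]
    show ∑ u : F, (u ^ j • s (y + r i u)) k = 0
    refine phi_sep φ hφ fun a => ?_
    have h5 := h i hi y (Pi.single (⟨j, by omega⟩ : Fin (D + 1)) (Pi.single k a))
    have h6 : ∀ u : F, crv (Pi.single (⟨j, by omega⟩ : Fin (D + 1)) (Pi.single k a) :
        Fin (D + 1) → ρ → F) u = Pi.single k (u ^ j * a) := by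
      intro u
      rw [crv, Finset.sum_eq_single (⟨j, by omega⟩ : Fin (D + 1))]
      · rw [Pi.single_eq_same]
        funext m
        by_cases hm : m = k
        · subst hm; simp
        · simp [Pi.single_eq_of_ne hm]
      · intro m _ hm
        rw [Pi.single_eq_of_ne hm, smul_zero]
      · simp
    rw [tsum] at h5
    simp only [h6] at h5
    have h7 : ∀ u : F, τ (y + r i u) (Pi.single k (u ^ j * a)) =
        τ (y + r i u) 0 + φ (u ^ j * a * s (y + r i u) k) := by
      intro u
      rw [hword, Finset.sum_eq_single k]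
      · rw [Pi.single_eq_same]
      · intro m _ hm
        rw [Pi.single_eq_of_ne hm, zero_mul]
      · simp
    simp only [h7, sum_add_distrib, hb i hi y, zero_add] at h5
    rw [← map_sum] at h5
    rw [mul_sum, ← h5]
    congr 1
    exact sum_congr rfl fun u _ => by rw [Pi.smul_apply, smul_eq_mul]; ring

end struct

section final

variable {F Y ι ρ : Type*} [Field F] [Fintype F] [DecidableEq F] [CharP F 2]
  [AddCommGroup Y] [Fintype Y] [DecidableEq Y] [Fintype ι] [Nonempty ι]
  [Fintype ρ] [DecidableEq ρ]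

omit [DecidableEq F] [CharP F 2] [DecidableEq Y] [Fintype ρ] [DecidableEq ρ] [Fintype F] in
theorem Spr.mix (h2 : ∀ y : Y, y + y = 0) {r : ι → F →+ Y} {lam : ℝ} (h0 : 0 ≤ lam)
    (hb : Spr r lam) : Mix r 1 lam := by
  intro g _ u hu
  have := mix_le h2 (fun i => r i u) h0 (hb u hu) g
  simpa using this

omit [DecidableEq F] [CharP F 2] [DecidableEq Y] [Fintype ρ] [DecidableEq ρ] [Fintype F]
  [Nonempty ι] in
theorem Spr.nonneg [Nontrivial Y] (h2 : ∀ y : Y, y + y = 0) {r : ι → F →+ Y} {lam : ℝ}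
    (hb : Spr r lam) : 0 ≤ lam := (hb 1 one_ne_zero).nonneg h2

/-- LTC + structure. -/
theorem ltc_structure (φ : F →+ ZMod 2) (hφ : φ ≠ 0) {q D : ℕ} (hq : Fintype.card F = q)
    (hD : q ≤ 2 * D + 1) (hD2 : D + 2 ≤ q) (hY : ∀ y : Y, y + y = 0) (r : ι → F →+ Y)
    (hr : ∀ i, Function.Injective (r i)) {lam : ℝ}
    (hb : Spr r lam) (hlam : (q : ℝ) * lam ≤ 1 / 16) (σ : Y → (ρ → F) → ZMod 2)
    (hε : eps D r σ ≤ 1 / (160 * (q : ℝ) ^ 2)) :
    ∃ (b : Y → ZMod 2) (s : Y → ρ → F) (I : Finset ι), I.Nonempty ∧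
      fdist σ (word φ b s) ≤ 3 * eps D r σ / q ∧
      (1 - 4 * q * eps D r σ) * Fintype.card ι ≤ #I ∧
      (∀ i ∈ I, ∀ y, ∑ u : F, b (y + r i u) = 0) ∧
      ∀ i ∈ I, ∀ y, Low (q - 2 - D) fun u : F => s (y + r i u) := by
  have hNt : Nontrivial Y := by
    obtain ⟨i⟩ := (inferInstance : Nonempty ι)
    exact ⟨⟨r i 1, r i 0, fun h => one_ne_zero (hr i h)⟩⟩
  have hlam0 : 0 ≤ lam := hb.nonneg hY
  have hD1 : 1 ≤ D := by
    have : 2 ≤ q := by
      rw [← hq]; exact Fintype.one_lt_card
    omega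
  obtain ⟨τ, h1, I, h2, h3, h4⟩ := ltc hq hD1 hD2 r hr hlam0 hlam (hb.mix hY hlam0) σ hε
  obtain ⟨b, s, h5, h6, h7⟩ := struct φ hφ hq hD hD2 r τ I h2 h4
  exact ⟨b, s, I, h2, h5 ▸ h1, h3, h6, h7⟩

end final

end Vale.Agent.P330.Q
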