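import Vale.Agent.P330.Q.LTC.Read
import Vale.Agent.P318.H764.Dist

/-!
# The distance of functions of low degree in most directions
-/

set_option linter.unusedSectionVars false

namespace Vale.Agent.P330.Q

open Finset Vale.Agent.P318.S Vale.Agent.P318.H764
open scoped BigOperators

section dist

variable {F Y ι : Type*} [Field F] [Fintype F] [DecidableEq F]
  [AddCommGroup Y] [Fintype Y] [Fintype ι]

/-- Distance. -/
theorem low_dist {q d : ℕ} (hq : Fintype.card F = q) (hY2 : ∀ y : Y, y + y = 0) (r : ι → F →+ Y) (I : Finset ι) (hI : I.Nonempty)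
    {lam κ : ℝ} (h0 : 0 ≤ lam) (hb : Spr r lam) (hκ : (1 - κ) * Fintype.card ι ≤ #I)
    (hκ1 : κ < 1) (f : Y → F) (hf : ∀ i ∈ I, ∀ y, Low d fun u : F => f (y + r i u))
    (hne : f ≠ 0) :
    (1 - (d : ℝ) / (q - 1)) * (1 - κ) - lam ≤ 𝔼 y : Y, if f y = 0 then (0 : ℝ) else 1 := by
  classical
  obtain ⟨i0, hi0⟩ := hI
  have : Nonempty ι := ⟨i0⟩
  have hq1 : (1 : ℝ) < q := by rw [← hq]; exact_mod_cast Fintype.one_lt_card
  have hι : (0 : ℝ) < Fintype.card ι := by exact_mod_cast Fintype.card_pos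
  have : Nonempty Y := ⟨0⟩
  have hY : (0 : ℝ) < Fintype.card Y := by exact_mod_cast Fintype.card_pos
  set g : Y → ℝ := fun y => if f y = 0 then 0 else 1 with hg
  have hg0 : ∀ y, 0 ≤ g y := fun y => by simp only [hg]; split_ifs <;> norm_num
  have hg2 : ∀ y, g y ^ 2 = g y := fun y => by simp only [hg]; split_ifs <;> norm_num
  set μ : ℝ := 𝔼 y, g y with hμ
  have hμ0 : 0 ≤ μ := expect_nn hg0
  change _ ≤ μ
  rcases le_or_gt ((q : ℝ) - 1) d with hd | hd
  · have h1 : 1 ≤ (d : ℝ) / (q - 1) := by rwa [one_le_div (by linarith)]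
    nlinarith
  have hμpos : 0 < μ := by
    obtain ⟨y0, hy0⟩ : ∃ y, f y ≠ 0 := by
      by_contra hh
      push Not at hh
      exact hne (funext hh)
    rw [hμ, Fintype.expect_eq_sum_div_card]
    refine div_pos ?_ hY
    refine Finset.sum_pos' (fun y _ => hg0 y) ⟨y0, mem_univ _, ?_⟩
    simp [hg, hy0]
  -- upper bound
  have hup : ∑ u ∈ univ.filter (fun u : F => u ≠ 0), 𝔼 i : ι, 𝔼 y : Y, g y * g (y + r i u) ≤
      (q - 1) * (μ ^ 2 + lam * μ) := by
    have h1 : ∀ u ∈ univ.filter (fun u : F => u ≠ 0),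
        𝔼 i : ι, 𝔼 y : Y, g y * g (y + r i u) ≤ μ ^ 2 + lam * μ := by
      intro u hu
      have h2 := hb.mix hY2 h0 g hg0 u (mem_filter.1 hu).2
      simp only [hg2, one_mul] at h2
      exact h2
    refine (Finset.sum_le_sum h1).trans ?_
    rw [sum_const, nsmul_eq_mul]
    have h3 : (#(univ.filter fun u : F => u ≠ 0) : ℝ) = q - 1 := by
      rw [Finset.filter_ne' univ (0 : F), Finset.card_erase_of_mem (mem_univ _), card_univ, hq,
        Nat.cast_sub (by exact_mod_cast hq1.le), Nat.cast_one]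
    rw [h3]
  -- lower bound
  have hlow : (1 - κ) * ((q - 1 - d) * μ) ≤
      ∑ u ∈ univ.filter (fun u : F => u ≠ 0), 𝔼 i : ι, 𝔼 y : Y, g y * g (y + r i u) := by
    have e1 : ∑ u ∈ univ.filter (fun u : F => u ≠ 0), 𝔼 i : ι, 𝔼 y : Y, g y * g (y + r i u) =
        𝔼 i : ι, 𝔼 y : Y, ∑ u ∈ univ.filter (fun u : F => u ≠ 0), g y * g (y + r i u) := by
      rw [← Finset.expect_sum_comm]
      refine expect_congr rfl fun i _ => ?_
      rw [← Finset.expect_sum_comm]
    rw [e1]
    have e2 : ∀ i ∈ I, (q - 1 - d) * μ ≤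
        𝔼 y : Y, ∑ u ∈ univ.filter (fun u : F => u ≠ 0), g y * g (y + r i u) := by
      intro i hi
      rw [hμ, Finset.mul_expect]
      refine expect_mono fun y => ?_
      rw [← Finset.mul_sum, mul_comm]
      by_cases hy : f y = 0
      · simp [hg, hy]
      · have h1 := line_count hq (hf i hi y) (by simpa using hy)
        exact mul_le_mul_of_nonneg_left h1 (hg0 y)
    rw [Fintype.expect_eq_sum_div_card, le_div_iff₀ hι]
    calc (1 - κ) * ((q - 1 - d) * μ) * Fintype.card ι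
        = ((1 - κ) * Fintype.card ι) * ((q - 1 - d) * μ) := by ring
      _ ≤ #I * ((q - 1 - d) * μ) :=
          mul_le_mul_of_nonneg_right hκ (mul_nonneg (by linarith) hμ0)
      _ = ∑ i ∈ I, (q - 1 - d) * μ := by rw [sum_const, nsmul_eq_mul]
      _ ≤ ∑ i ∈ I, 𝔼 y : Y, ∑ u ∈ univ.filter (fun u : F => u ≠ 0), g y * g (y + r i u) :=
          sum_le_sum e2
      _ ≤ _ := Finset.sum_le_sum_of_subset_of_nonneg (subset_univ _) fun i _ _ =>
          expect_nn fun y => sum_nonneg fun u _ => mul_nonneg (hg0 _) (hg0 _)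
  have hfin := hlow.trans hup
  have h5 : (1 - κ) * (q - 1 - d) ≤ (q - 1) * (μ + lam) := by
    have : (1 - κ) * (q - 1 - d) * μ ≤ (q - 1) * (μ + lam) * μ := by nlinarith
    exact le_of_mul_le_mul_right this hμpos
  have h6 : (1 - (d : ℝ) / (q - 1)) * (1 - κ) * (q - 1) = (1 - κ) * (q - 1 - d) := by
    have : (q : ℝ) - 1 ≠ 0 := by linarith
    field_simp
  have h7 : (1 - (d : ℝ) / (q - 1)) * (1 - κ) ≤ μ + lam := by
    have h8 : (0 : ℝ) < q - 1 := by linarith
    refine le_of_mul_le_mul_right ?_ h8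
    rw [h6, mul_comm (μ + lam)]
    exact h5
  linarith


end dist

end Vale.Agent.P330.Q
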