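import Vale.Agent.P330.Q.LTC.Struct

/-!
# Reading a codeword
-/

set_option linter.unusedSectionVars false

namespace Vale.Agent.P330.Q

open Finset Vale.Agent.P318.S
open scoped BigOperators

section

variable {F Y ι ρ : Type*} [Field F] [Fintype F] [DecidableEq F]
  [AddCommGroup Y] [Fintype Y] [Fintype ι] [Nonempty ι]
  [Fintype ρ] [DecidableEq ρ]

theorem word_tsum (φ : F →+ ZMod 2) {q D : ℕ} (hq : Fintype.card F = q)
    (hD : D + 2 ≤ q) (b : Y → ZMod 2) (s : Y → ρ → F) (r : F →+ Y) (y : Y)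
    (hlow : Low (q - 2 - D) fun u : F => s (y + r u))
    (hb : ∑ u : F, b (y + r u) = 0) (C : Fin (D + 1) → ρ → F) :
    tsum (word φ b s) r y C = 0 := by
  obtain ⟨p, hp⟩ := hlow
  simp only [tsum, word, sum_add_distrib, hb, zero_add]
  rw [← map_sum]
  have : ∑ u : F, ∑ j, crv C u j * s (y + r u) j = 0 := by
    rw [sum_comm]
    refine sum_eq_zero fun j _ => ?_
    have e : ∀ u : F, crv C u j * s (y + r u) j =
        ∑ k : Fin (D + 1), ∑ l : Fin (q - 2 - D + 1), u ^ ((k : ℕ) + l) * (C k j * p l j) := by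
      intro u
      have h1 : s (y + r u) j = crv p u j := congrFun (hp u) j
      rw [h1]
      simp only [crv, Finset.sum_apply, Pi.smul_apply, smul_eq_mul]
      rw [sum_mul_sum]
      refine sum_congr rfl fun k _ => sum_congr rfl fun l _ => ?_
      rw [pow_add]; ring
    simp only [e]
    rw [sum_comm]
    refine sum_eq_zero fun k _ => ?_
    rw [sum_comm]
    refine sum_eq_zero fun l _ => ?_
    rw [← sum_mul, FiniteField.sum_pow_lt_card_sub_one, zero_mul]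
    have := k.2
    have := l.2
    rw [hq]
    omega
  rw [this, map_zero]

/-- For directions in `I` a READ of a codeword returns the value of the component vector. -/
theorem rdSum_word (φ : F →+ ZMod 2) {q D : ℕ} (hq : Fintype.card F = q)
    (hD : D + 2 ≤ q) (r : ι → F →+ Y) (b : Y → ZMod 2) (s : Y → ρ → F) (y : Y) (cst : ρ → F)
    (i : Fin 2 → ι) (hI : ∀ k, Low (q - 2 - D) fun u : F => s (y + r (i k) u))
    (hbI : ∀ k, ∑ u : F, b (y + r (i k) u) = 0) (C : Fin 2 → Fin D → ρ → F) (c : ρ → F) :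
    rdSum (word φ b s) r y cst i C c = φ (∑ j, cst j * s y j) := by
  have key : ∀ k : Fin 2, ∑ u : {u : F // u ≠ 0},
      word φ b s (rdPos r y cst i C c (k, u)).1 (rdPos r y cst i C c (k, u)).2 =
      word φ b s y (if k = 0 then cst + c else c) := by
    intro k
    have h := word_tsum φ hq hD b s (r (i k)) y (hI k) (hbI k)
      (Fin.cons (if k = 0 then cst + c else c) (C k))
    rw [tsum, ← Finset.add_sum_erase univ _ (mem_univ (0 : F))] at h
    have e1 : ∑ u : {u : F // u ≠ 0},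
      word φ b s (rdPos r y cst i C c (k, u)).1 (rdPos r y cst i C c (k, u)).2 =
      ∑ u ∈ univ.erase (0 : F), word φ b s (y + r (i k) u)
        (crv (Fin.cons (if k = 0 then cst + c else c) (C k) : Fin (D + 1) → ρ → F) u) := by
      refine (Finset.sum_subtype (univ.erase (0 : F)) (p := fun u => u ≠ 0) (by simp)
        (fun u => word φ b s (y + r (i k) u)
        (crv (Fin.cons (if k = 0 then cst + c else c) (C k) : Fin (D + 1) → ρ → F) u))).symm
    rw [e1]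
    clear e1
    rw [map_zero, add_zero, crv_zero, Fin.cons_zero] at h
    generalize word φ b s y (if k = 0 then cst + c else c) = a1 at *
    generalize ∑ u ∈ univ.erase (0 : F), word φ b s (y + r (i k) u)
        (crv (Fin.cons (if k = 0 then cst + c else c) (C k) : Fin (D + 1) → ρ → F) u) = a2 at *
    revert a1 a2; decide
  rw [rdSum, Fintype.sum_prod_type, Fin.sum_univ_two, key, key]
  simp only [if_true, one_ne_zero, if_false, word]
  have e2 : ∑ j, (cst + c) j * s y j = ∑ j, cst j * s y j + ∑ j, c j * s y j := by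
    rw [← sum_add_distrib]
    exact sum_congr rfl fun j _ => by rw [Pi.add_apply]; ring
  rw [e2, map_add]
  generalize b y = a1
  generalize φ (∑ j, cst j * s y j) = a2
  generalize φ (∑ j, c j * s y j) = a3
  revert a1 a2 a3; decide

/-- Each query of a READ is uniformly distributed. -/
theorem rdPos_unif {D : ℕ} (r : ι → F →+ Y) {Ω : Type*} [Fintype Ω] [Nonempty Ω] (yv : Ω → Y)
    (hyv : ∀ g : Y → ℝ, 𝔼 ω, g (yv ω) = 𝔼 y, g y) (cst : Ω → ρ → F)
    (p : Fin 2 × {u : F // u ≠ 0}) (g : Y → (ρ → F) → ℝ) :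
    𝔼 ω : Ω, 𝔼 i : Fin 2 → ι, 𝔼 C : Fin 2 → Fin D → ρ → F, 𝔼 c : ρ → F,
        g (rdPos r (yv ω) (cst ω) i C c p).1 (rdPos r (yv ω) (cst ω) i C c p).2 =
      𝔼 y, 𝔼 c, g y c := by
  have h1 : ∀ (ω : Ω) (i : Fin 2 → ι) (C : Fin 2 → Fin D → ρ → F),
      𝔼 c : ρ → F, g (rdPos r (yv ω) (cst ω) i C c p).1 (rdPos r (yv ω) (cst ω) i C c p).2 =
      𝔼 c : ρ → F, g (yv ω + r (i p.1) (p.2 : F)) c := by
    intro ω i C
    rw [← expect_shift ((if p.1 = 0 then cst ω else 0) +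
      ∑ j : Fin D, (p.2 : F) ^ ((j : ℕ) + 1) • C p.1 j)
      (fun c => g (yv ω + r (i p.1) (p.2 : F)) c)]
    refine expect_congr rfl fun c _ => ?_
    simp only [rdPos, crv_cons]
    congr 1
    split_ifs
    · abel
    · abel
  simp only [h1, Fintype.expect_const]
  rw [Finset.expect_comm]
  have h2 : ∀ i : Fin 2 → ι, 𝔼 ω : Ω, 𝔼 c : ρ → F, g (yv ω + r (i p.1) (p.2 : F)) c =
      𝔼 y, 𝔼 c, g y c := by
    intro i
    rw [hyv (fun y => 𝔼 c : ρ → F, g (y + r (i p.1) (p.2 : F)) c)]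
    exact expect_shift _ fun y => 𝔼 c : ρ → F, g y c
  simp only [h2, Fintype.expect_const]

/-- The error probability of a READ. -/
theorem read_err (φ : F →+ ZMod 2) {q D : ℕ} (hq : Fintype.card F = q)
    (r : ι → F →+ Y) (σ : Y → (ρ → F) → ZMod 2) (b : Y → ZMod 2) (s : Y → ρ → F) (I : Finset ι)
    (hD : D + 2 ≤ q) (hI : ∀ i ∈ I, ∀ y, Low (q - 2 - D) fun u : F => s (y + r i u))
    (hbI : ∀ i ∈ I, ∀ y, ∑ u : F, b (y + r i u) = 0)
    {Ω : Type*} [Fintype Ω] [Nonempty Ω] (yv : Ω → Y) (hyv : ∀ g : Y → ℝ, 𝔼 ω, g (yv ω) = 𝔼 y, g y)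
    (cst : Ω → ρ → F) {η κ : ℝ} (hη : fdist σ (word φ b s) ≤ η)
    (hκ : (1 - κ) * Fintype.card ι ≤ #I) :
    𝔼 ω : Ω, 𝔼 i : Fin 2 → ι, 𝔼 C : Fin 2 → Fin D → ρ → F, 𝔼 c : ρ → F,
        ind (rdSum σ r (yv ω) (cst ω) i C c + φ (∑ j, cst ω j * s (yv ω) j)) ≤
      2 * (q - 1) * η + 2 * κ := by
  classical
  have hpt : ∀ (ω : Ω) (i : Fin 2 → ι) (C : Fin 2 → Fin D → ρ → F) (c : ρ → F),
      ind (rdSum σ r (yv ω) (cst ω) i C c + φ (∑ j, cst ω j * s (yv ω) j)) ≤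
      ∑ p : Fin 2 × {u : F // u ≠ 0},
        ind (σ (rdPos r (yv ω) (cst ω) i C c p).1 (rdPos r (yv ω) (cst ω) i C c p).2 +
          word φ b s (rdPos r (yv ω) (cst ω) i C c p).1 (rdPos r (yv ω) (cst ω) i C c p).2) +
      ∑ k : Fin 2, (if i k ∈ I then (0 : ℝ) else 1) := by
    intro ω i C c
    have n1 : 0 ≤ ∑ p : Fin 2 × {u : F // u ≠ 0},
        ind (σ (rdPos r (yv ω) (cst ω) i C c p).1 (rdPos r (yv ω) (cst ω) i C c p).2 +
          word φ b s (rdPos r (yv ω) (cst ω) i C c p).1 (rdPos r (yv ω) (cst ω) i C c p).2) :=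
      sum_nonneg fun p _ => ind_nonneg _
    have n2 : 0 ≤ ∑ k : Fin 2, (if i k ∈ I then (0 : ℝ) else 1) :=
      sum_nonneg fun k _ => by split_ifs <;> norm_num
    by_cases hall : ∀ k, i k ∈ I
    · rw [← rdSum_word φ hq hD r b s (yv ω) (cst ω) i (fun k => hI _ (hall k) _)
        (fun k => hbI _ (hall k) _) C c, rdSum, rdSum, ← sum_add_distrib]
      linarith [ind_sum_le univ fun p : Fin 2 × {u : F // u ≠ 0} =>
        (σ (rdPos r (yv ω) (cst ω) i C c p).1 (rdPos r (yv ω) (cst ω) i C c p).2 +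
          word φ b s (rdPos r (yv ω) (cst ω) i C c p).1 (rdPos r (yv ω) (cst ω) i C c p).2)]
    · push Not at hall
      obtain ⟨k, hk⟩ := hall
      have : (1 : ℝ) ≤ ∑ k : Fin 2, (if i k ∈ I then (0 : ℝ) else 1) := by
        refine le_trans ?_ (Finset.single_le_sum (f := fun k : Fin 2 =>
          if i k ∈ I then (0 : ℝ) else 1) (fun k _ => by split_ifs <;> norm_num) (mem_univ k))
        simp [hk]
      linarith [ind_le_one (rdSum σ r (yv ω) (cst ω) i C c + φ (∑ j, cst ω j * s (yv ω) j))]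
  refine (expect_mono fun ω => expect_mono fun i => expect_mono fun C => expect_mono fun c =>
    hpt ω i C c).trans ?_
  simp only [Finset.expect_add_distrib, Finset.expect_sum_comm]
  refine add_le_add ?_ ?_
  · have h1 : ∀ p : Fin 2 × {u : F // u ≠ 0}, 𝔼 ω : Ω, 𝔼 i : Fin 2 → ι,
        𝔼 C : Fin 2 → Fin D → ρ → F, 𝔼 c : ρ → F,
        ind (σ (rdPos r (yv ω) (cst ω) i C c p).1 (rdPos r (yv ω) (cst ω) i C c p).2 +
          word φ b s (rdPos r (yv ω) (cst ω) i C c p).1 (rdPos r (yv ω) (cst ω) i C c p).2) =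
        fdist σ (word φ b s) := fun p =>
      rdPos_unif r yv hyv cst p fun y c => ind (σ y c + word φ b s y c)
    simp only [h1, sum_const, card_univ, nsmul_eq_mul]
    have hc : (Fintype.card (Fin 2 × {u : F // u ≠ 0}) : ℝ) = 2 * (q - 1) := by
      have h2 : Fintype.card {u : F // u ≠ 0} = q - 1 := by
        rw [Fintype.card_subtype_compl, hq, Fintype.card_subtype_eq]
      rw [Fintype.card_prod, Fintype.card_fin, h2]
      push_cast [Nat.cast_sub (by omega : 1 ≤ q)]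
      ring
    rw [hc]
    have : (0 : ℝ) ≤ 2 * (q - 1) := by
      have : (2 : ℝ) ≤ q := by exact_mod_cast (by omega : 2 ≤ q)
      linarith
    exact mul_le_mul_of_nonneg_left hη this
  · have hc : (0 : ℝ) < Fintype.card ι := by exact_mod_cast Fintype.card_pos
    have h3 : ∀ k : Fin 2, 𝔼 i : Fin 2 → ι, (if i k ∈ I then (0 : ℝ) else 1) ≤ κ := by
      intro k
      rw [expect_eval2 (fun a => if a ∈ I then (0 : ℝ) else 1) k,
        Fintype.expect_eq_sum_div_card, div_le_iff₀ hc]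
      have : ∑ a : ι, (if a ∈ I then (0 : ℝ) else 1) = Fintype.card ι - #I := by
        have e : ∀ a : ι, (if a ∈ I then (0 : ℝ) else 1) = 1 - if a ∈ I then 1 else 0 := by
          intro a; split_ifs <;> norm_num
        simp only [e, sum_sub_distrib, sum_const, card_univ, nsmul_eq_mul, mul_one]
        rw [Finset.sum_ite_mem, univ_inter, sum_const, nsmul_eq_mul, mul_one]
      rw [this]
      linarith
    simp only [Fintype.expect_const]
    calc ∑ k : Fin 2, 𝔼 i : Fin 2 → ι, (if i k ∈ I then (0 : ℝ) else 1)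
        ≤ ∑ _k : Fin 2, κ := sum_le_sum fun k _ => h3 k
      _ = 2 * κ := by simp

/-- The result of a READ. -/
theorem read_viol (φ : F →+ ZMod 2) {q D : ℕ} (hq : Fintype.card F = q)
    (r : ι → F →+ Y) (σ : Y → (ρ → F) → ZMod 2) (b : Y → ZMod 2) (s : Y → ρ → F) (I : Finset ι)
    (hD : D + 2 ≤ q) (hI : ∀ i ∈ I, ∀ y, Low (q - 2 - D) fun u : F => s (y + r i u))
    (hbI : ∀ i ∈ I, ∀ y, ∑ u : F, b (y + r i u) = 0)
    {Ω : Type*} [Fintype Ω] [Nonempty Ω] (yv : Ω → Y) (hyv : ∀ g : Y → ℝ, 𝔼 ω, g (yv ω) = 𝔼 y, g y)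
    (cst : Ω → ρ → F) (t : Ω → ZMod 2) {η κ : ℝ} (hη : fdist σ (word φ b s) ≤ η)
    (hκ : (1 - κ) * Fintype.card ι ≤ #I) :
    |(𝔼 ω : Ω, 𝔼 i : Fin 2 → ι, 𝔼 C : Fin 2 → Fin D → ρ → F, 𝔼 c : ρ → F,
        ind (rdSum σ r (yv ω) (cst ω) i C c + t ω)) -
      𝔼 ω : Ω, ind (φ (∑ j, cst ω j * s (yv ω) j) + t ω)| ≤ 2 * (q - 1) * η + 2 * κ := by
  refine le_trans ?_ (read_err φ hq r σ b s I hD hI hbI yv hyv cst hη hκ)
  have h1 : 𝔼 ω : Ω, ind (φ (∑ j, cst ω j * s (yv ω) j) + t ω) =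
      𝔼 ω : Ω, 𝔼 _i : Fin 2 → ι, 𝔼 _C : Fin 2 → Fin D → ρ → F, 𝔼 _c : ρ → F,
        ind (φ (∑ j, cst ω j * s (yv ω) j) + t ω) := by
    simp only [Fintype.expect_const]
  rw [h1]
  simp only [← Finset.expect_sub_distrib]
  refine (abs_expect_le _ _).trans (expect_mono fun ω => ?_)
  refine (abs_expect_le _ _).trans (expect_mono fun i => ?_)
  refine (abs_expect_le _ _).trans (expect_mono fun C => ?_)
  refine (abs_expect_le _ _).trans (expect_mono fun c => ?_)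
  exact ind_diff _ _ _

/-- The result of a test with two READs. -/
theorem read_viol2 (φ : F →+ ZMod 2) {q D : ℕ} (hq : Fintype.card F = q)
    (r : ι → F →+ Y) (σ : Y → (ρ → F) → ZMod 2) (b : Y → ZMod 2) (s : Y → ρ → F) (I : Finset ι)
    (hD : D + 2 ≤ q) (hI : ∀ i ∈ I, ∀ y, Low (q - 2 - D) fun u : F => s (y + r i u))
    (hbI : ∀ i ∈ I, ∀ y, ∑ u : F, b (y + r i u) = 0)
    {Ω : Type*} [Fintype Ω] [Nonempty Ω] (yv yv' : Ω → Y)
    (hyv : ∀ g : Y → ℝ, 𝔼 ω, g (yv ω) = 𝔼 y, g y) (hyv' : ∀ g : Y → ℝ, 𝔼 ω, g (yv' ω) = 𝔼 y, g y)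
    (cst cst' : Ω → ρ → F) (t : Ω → ZMod 2) {η κ : ℝ} (hη : fdist σ (word φ b s) ≤ η)
    (hκ : (1 - κ) * Fintype.card ι ≤ #I) :
    |(𝔼 ω : Ω, 𝔼 i : Fin 2 → ι, 𝔼 C : Fin 2 → Fin D → ρ → F, 𝔼 c : ρ → F,
        𝔼 i' : Fin 2 → ι, 𝔼 C' : Fin 2 → Fin D → ρ → F, 𝔼 c' : ρ → F,
        ind (rdSum σ r (yv ω) (cst ω) i C c + rdSum σ r (yv' ω) (cst' ω) i' C' c' + t ω)) -
      𝔼 ω : Ω, ind (φ (∑ j, cst ω j * s (yv ω) j) + φ (∑ j, cst' ω j * s (yv' ω) j) + t ω)| ≤
      2 * (2 * (q - 1) * η + 2 * κ) := by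
  have e1 := read_err φ hq r σ b s I hD hI hbI yv hyv cst hη hκ
  have e2 := read_err φ hq r σ b s I hD hI hbI yv' hyv' cst' hη hκ
  have h1 : 𝔼 ω : Ω, ind (φ (∑ j, cst ω j * s (yv ω) j) + φ (∑ j, cst' ω j * s (yv' ω) j) + t ω) =
      𝔼 ω : Ω, 𝔼 _i : Fin 2 → ι, 𝔼 _C : Fin 2 → Fin D → ρ → F, 𝔼 _c : ρ → F,
        𝔼 _i' : Fin 2 → ι, 𝔼 _C' : Fin 2 → Fin D → ρ → F, 𝔼 _c' : ρ → F,
        ind (φ (∑ j, cst ω j * s (yv ω) j) + φ (∑ j, cst' ω j * s (yv' ω) j) + t ω) := by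
    simp only [Fintype.expect_const]
  have h2 : 𝔼 ω : Ω, 𝔼 i : Fin 2 → ι, 𝔼 C : Fin 2 → Fin D → ρ → F, 𝔼 c : ρ → F,
      𝔼 i' : Fin 2 → ι, 𝔼 C' : Fin 2 → Fin D → ρ → F, 𝔼 c' : ρ → F,
      (ind (rdSum σ r (yv ω) (cst ω) i C c + φ (∑ j, cst ω j * s (yv ω) j)) +
        ind (rdSum σ r (yv' ω) (cst' ω) i' C' c' + φ (∑ j, cst' ω j * s (yv' ω) j))) ≤
      2 * (2 * (q - 1) * η + 2 * κ) := by
    simp only [Finset.expect_add_distrib, Fintype.expect_const]
    linarith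
  refine le_trans ?_ h2
  rw [h1]
  simp only [← Finset.expect_sub_distrib]
  refine (abs_expect_le _ _).trans (expect_mono fun ω => ?_)
  refine (abs_expect_le _ _).trans (expect_mono fun i => ?_)
  refine (abs_expect_le _ _).trans (expect_mono fun C => ?_)
  refine (abs_expect_le _ _).trans (expect_mono fun c => ?_)
  refine (abs_expect_le _ _).trans (expect_mono fun i' => ?_)
  refine (abs_expect_le _ _).trans (expect_mono fun C' => ?_)
  refine (abs_expect_le _ _).trans (expect_mono fun c' => ?_)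
  refine (ind_diff _ _ _).trans ?_
  refine le_trans (le_of_eq ?_) (ind_add_le _ _)
  congr 1
  ring

end


end Vale.Agent.P330.Q
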