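import Vale.Agent.P330.Q.LTC.Defs

/-!
# The two inequalities for the failure probabilities
-/

set_option linter.unusedSectionVars false

namespace Vale.Agent.P330.Q

open Finset Vale.Agent.P318.S
open scoped BigOperators

section grid

variable {F E : Type*} [Field F] [Fintype F] [AddCommGroup E] [Module F E] {D : ℕ}

variable {Y : Type*} [AddCommGroup Y]

theorem grid_sum (τ : Y → E → ZMod 2) (r r' : F →+ Y) (y : Y) (c : Fin (D + 1) → Fin (D + 1) → E) :
    ∑ u' : F, tsum τ r (y + r' u') (rowC c u') =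
      ∑ u : F, tsum τ r' (y + r u) (colC c u) := by
  simp only [tsum]
  rw [sum_comm]
  refine sum_congr rfl fun u _ => sum_congr rfl fun u' _ => ?_
  rw [grid_swap, add_right_comm]

/-- The shift reparametrisation. -/
theorem tsum_shift (τ : Y → E → ZMod 2) (r : F →+ Y) (y : Y) (C : Fin (D + 1) → E) (u0 : F) :
    tsum τ r (y + r u0) (shc u0 C) = tsum τ r y C := by
  rw [tsum, tsum]
  refine Fintype.sum_equiv (Equiv.addRight u0) _ _ fun u => ?_
  simp only [Equiv.coe_addRight]
  rw [crv_shc, map_add]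
  congr 1
  abel

end grid

section main

variable {F Y E ι : Type*} [Field F] [Fintype F] [DecidableEq F] [AddCommGroup Y]
  [Fintype Y] [AddCommGroup E] [Module F E] [Fintype E] [Fintype ι] [Nonempty ι] {D : ℕ}

omit [DecidableEq F] [Fintype Y] [Fintype E] in
theorem bad_nonneg (τ : Y → E → ZMod 2) (r : F →+ Y) (y : Y) (C : Fin (D + 1) → E) : 0 ≤ bad τ r y C :=
  ind_nonneg _

omit [DecidableEq F] [Fintype Y] [Fintype E] in
theorem bad_le_one (τ : Y → E → ZMod 2) (r : F →+ Y) (y : Y) (C : Fin (D + 1) → E) : bad τ r y C ≤ 1 :=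
  ind_le_one _

omit [DecidableEq F] [Fintype Y] in
theorem epsAt_nonneg (τ : Y → E → ZMod 2) (r : F →+ Y) (y : Y) : 0 ≤ epsAt D τ r y :=
  expect_nn fun C => bad_nonneg τ r y C

omit [DecidableEq F] [Fintype Y] in
theorem epsAt_le_one (τ : Y → E → ZMod 2) (r : F →+ Y) (y : Y) : epsAt D τ r y ≤ 1 := by
  have : Nonempty E := ⟨0⟩
  exact expect_le_of fun C => bad_le_one τ r y C

omit [DecidableEq F] [Fintype Y] in
theorem del_nonneg (r : ι → F →+ Y) (τ : Y → E → ZMod 2) (y : Y) (c : E) : 0 ≤ del D r τ y c :=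
  expect_nn fun _ => expect_nn fun _ => bad_nonneg _ _ _ _

/-- The two row term. -/
theorem term_rows (hD : 1 ≤ D) (τ : Y → E → ZMod 2) (r r' : F →+ Y) {u' : F} (hu : u' ≠ 0) :
    𝔼 y : Y, 𝔼 c : Fin (D + 1) → Fin (D + 1) → E,
        bad τ r y (rowC c (0 : F)) * bad τ r (y + r' u') (rowC c u') =
      𝔼 y : Y, epsAt D τ r y * epsAt D τ r (y + r' u') := by
  refine expect_congr rfl fun y _ => ?_
  have h := expect_affine _ (rows_surj (E := E) hD hu) 0
    (fun x : (Fin (D + 1) → E) × (Fin (D + 1) → E) =>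
      bad τ r y x.1 * bad τ r (y + r' u') x.2)
  simp only [add_zero] at h
  rw [expect_prod'] at h
  rw [epsAt, epsAt, Finset.expect_mul_expect]
  exact h

/-- The row-column term. -/
theorem term_rowcol {q : ℕ} (hq : Fintype.card F = q) (hDq : D + 2 ≤ q) (τ : Y → E → ZMod 2)
    (r r' : F →+ Y) (u : F) :
    𝔼 y : Y, 𝔼 c : Fin (D + 1) → Fin (D + 1) → E,
        bad τ r y (rowC c (0 : F)) * bad τ r' (y + r u) (colC c u) =
      𝔼 y : Y, 𝔼 a : E, (𝔼 A : Fin D → E, bad τ r y (Fin.cons a A : Fin (D + 1) → E)) *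
        𝔼 B : Fin D → E, bad τ r' y (Fin.cons a B : Fin (D + 1) → E) := by
  have h1 : ∀ (y : Y) (c : Fin (D + 1) → Fin (D + 1) → E),
      bad τ r y (rowC c (0 : F)) = bad τ r (y + r u) (shc u (rowC c (0 : F))) := by
    intro y c
    rw [bad, bad, tsum_shift]
  simp only [h1]
  rw [expect_shift (r u) (fun y => 𝔼 c : Fin (D + 1) → Fin (D + 1) → E,
    bad τ r y (shc u (rowC c (0 : F))) * bad τ r' y (colC c u))]
  refine expect_congr rfl fun y _ => ?_
  have h := expect_affine _ (rowcol_surj (E := E) hq hDq u) 0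
    (fun x : E × (Fin D → E) × (Fin D → E) =>
      bad τ r y (Fin.cons x.1 x.2.1 : Fin (D + 1) → E) *
        bad τ r' y (Fin.cons x.1 x.2.2 : Fin (D + 1) → E))
  simp only [add_zero] at h
  rw [expect_prod'] at h
  simp only [Finset.expect_mul_expect]
  have e2 : ∀ a : E, 𝔼 b : (Fin D → E) × (Fin D → E),
      bad τ r y (Fin.cons a b.1 : Fin (D + 1) → E) *
        bad τ r' y (Fin.cons a b.2 : Fin (D + 1) → E) =
      𝔼 A : Fin D → E, 𝔼 B : Fin D → E, bad τ r y (Fin.cons a A : Fin (D + 1) → E) *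
        bad τ r' y (Fin.cons a B : Fin (D + 1) → E) := fun a => expect_prod' _
  simp only [e2] at h
  rw [← h]
  refine expect_congr rfl fun c _ => ?_
  have e3 : (Fin.cons (colC c u 0) (fun j : Fin D => shc u (rowC c (0 : F)) j.succ) :
      Fin (D + 1) → E) = shc u (rowC c (0 : F)) := by
    have : colC c u 0 = shc u (rowC c (0 : F)) 0 := by
      rw [shc_head, rowC_zero]; rfl
    rw [this]
    exact Fin.cons_self_tail _
  have e4 : (Fin.cons (colC c u 0) (fun j : Fin D => colC c u j.succ) :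
      Fin (D + 1) → E) = colC c u := Fin.cons_self_tail _
  show _ = bad τ r y (Fin.cons (colC c u 0) (fun j : Fin D => shc u (rowC c (0 : F)) j.succ) :
      Fin (D + 1) → E) * bad τ r' y (Fin.cons (colC c u 0) (fun j : Fin D => colC c u j.succ) :
      Fin (D + 1) → E)
  rw [e3, e4]

theorem epsDir_row (τ : Y → E → ZMod 2) (r : F →+ Y) :
    𝔼 y : Y, 𝔼 c : Fin (D + 1) → Fin (D + 1) → E, bad τ r y (rowC c (0 : F)) =
      epsDir D τ r := by
  refine expect_congr rfl fun y _ => ?_
  have h := expect_affine _ (rowHom_zero_surj (F := F) (E := E) (D := D)) 0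
    (fun x => bad τ r y x)
  simp only [add_zero] at h
  exact h

/-- The grid inequality for two fixed directions. -/
theorem star_fix {q : ℕ} (hq : Fintype.card F = q) (hD : 1 ≤ D) (hDq : D + 2 ≤ q)
    (τ : Y → E → ZMod 2) (r r' : F →+ Y) :
    epsDir D τ r ≤
      ∑ u' ∈ univ.erase (0 : F), 𝔼 y : Y, epsAt D τ r y * epsAt D τ r (y + r' u') +
      ∑ _u : F, 𝔼 y : Y, 𝔼 a : E,
        (𝔼 A : Fin D → E, bad τ r y (Fin.cons a A : Fin (D + 1) → E)) *
        𝔼 B : Fin D → E, bad τ r' y (Fin.cons a B : Fin (D + 1) → E) := by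
  rw [← epsDir_row]
  have h : ∀ (y : Y) (c : Fin (D + 1) → Fin (D + 1) → E), bad τ r y (rowC c (0 : F)) ≤
      ∑ u' ∈ univ.erase (0 : F), bad τ r y (rowC c (0 : F)) *
        bad τ r (y + r' u') (rowC c u') +
      ∑ u : F, bad τ r y (rowC c (0 : F)) * bad τ r' (y + r u) (colC c u) := by
    intro y c
    have := parity_one (R := fun u' => tsum τ r (y + r' u') (rowC c u'))
      (C := fun u => tsum τ r' (y + r u) (colC c u)) (grid_sum τ r r' y c)
    simpa [bad] using this
  refine (expect_mono fun y => expect_mono fun c => h y c).trans (le_of_eq ?_)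
  simp only [Finset.expect_add_distrib, Finset.expect_sum_comm]
  congr 1
  · exact sum_congr rfl fun u' hu' => term_rows hD τ r r' (ne_of_mem_erase hu')
  · exact sum_congr rfl fun u _ => term_rowcol hq hDq τ r r' u

omit [DecidableEq F] in
theorem eps_eq_del (r : ι → F →+ Y) (τ : Y → E → ZMod 2) :
    eps D r τ = 𝔼 y : Y, 𝔼 c : E, del D r τ y c := by
  simp only [eps, epsDir, epsAt, del]
  rw [Finset.expect_comm]
  refine expect_congr rfl fun y _ => ?_
  simp only [expect_cons (M := E)]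
  rw [Finset.expect_comm]

/-- Inequality (*). -/
theorem star {q : ℕ} (hq : Fintype.card F = q) (hD : 1 ≤ D) (hDq : D + 2 ≤ q) (r : ι → F →+ Y)
    {A lam : ℝ} (hlam : 0 ≤ lam) (hM : Mix r A lam) (τ : Y → E → ZMod 2) :
    eps D r τ ≤ (q - 1) * 𝔼 i : ι, (A * epsDir D τ (r i) ^ 2 + lam * epsDir D τ (r i)) +
      q * 𝔼 y : Y, 𝔼 c : E, del D r τ y c ^ 2 := by
  have h1 : eps D r τ = 𝔼 i : ι, 𝔼 _i' : ι, epsDir D τ (r i) := by
    rw [eps]
    exact expect_congr rfl fun i _ => (Fintype.expect_const _).symm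
  rw [h1]
  refine (expect_mono fun i => expect_mono fun i' => star_fix hq hD hDq τ (r i) (r i')).trans ?_
  simp only [Finset.expect_add_distrib, Finset.expect_sum_comm]
  refine add_le_add ?_ ?_
  · have hcard : (#(univ.erase (0 : F)) : ℝ) = q - 1 := by
      rw [card_erase_of_mem (mem_univ _), card_univ, hq, Nat.cast_sub (by omega), Nat.cast_one]
    rw [← hcard, ← nsmul_eq_mul, ← sum_const]
    refine sum_le_sum fun u' hu' => ?_
    rw [← Finset.expect_add_distrib]
    refine expect_mono fun i => ?_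
    refine (hM (fun y => epsAt D τ (r i) y) (fun y => epsAt_nonneg _ _ _) u'
      (ne_of_mem_erase hu')).trans ?_
    refine add_le_add le_rfl (mul_le_mul_of_nonneg_left ?_ hlam)
    refine expect_mono fun y => ?_
    have h0 := epsAt_nonneg (F := F) (D := D) τ (r i) y
    have h1 := epsAt_le_one (F := F) (D := D) τ (r i) y
    nlinarith
  · rw [sum_const, card_univ, hq, nsmul_eq_mul]
    refine le_of_eq ?_
    congr 1
    have h2 : ∀ i i' : ι, (𝔼 y : Y, 𝔼 a : E,
        (𝔼 A : Fin D → E, bad τ (r i) y (Fin.cons a A : Fin (D + 1) → E)) *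
        𝔼 B : Fin D → E, bad τ (r i') y (Fin.cons a B : Fin (D + 1) → E)) =
      𝔼 y : Y, 𝔼 a : E, (𝔼 A : Fin D → E, bad τ (r i) y (Fin.cons a A : Fin (D + 1) → E)) *
        𝔼 B : Fin D → E, bad τ (r i') y (Fin.cons a B : Fin (D + 1) → E) := fun _ _ => rfl
    have h3 : ∀ (y : Y) (c : E), del D r τ y c ^ 2 = 𝔼 i : ι, 𝔼 i' : ι,
        (𝔼 A : Fin D → E, bad τ (r i) y (Fin.cons c A : Fin (D + 1) → E)) *
        𝔼 B : Fin D → E, bad τ (r i') y (Fin.cons c B : Fin (D + 1) → E) := by
      intro y c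
      rw [sq, del, Finset.expect_mul_expect]
    simp only [h3]
    rw [Finset.expect_congr rfl fun i _ => Finset.expect_comm _ _ _, Finset.expect_comm]
    refine expect_congr rfl fun y _ => ?_
    rw [Finset.expect_congr rfl fun i _ => Finset.expect_comm _ _ _, Finset.expect_comm]

end main

end Vale.Agent.P330.Q
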