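import Vale.Agent.P330.Q.LTC.Star

/-!
# The second inequality
-/

set_option linter.unusedSectionVars false

namespace Vale.Agent.P330.Q

open Finset Vale.Agent.P318.S
open scoped BigOperators

section main

variable {F Y E ι : Type*} [Field F] [Fintype F] [DecidableEq F] [AddCommGroup Y]
  [Fintype Y] [AddCommGroup E] [Module F E] [Fintype E] [Fintype ι] [Nonempty ι] {D : ℕ}

omit [Fintype Y] in
theorem expect_gridrow (hD : 1 ≤ D) {u : F} (hu : u ≠ 0) (c0 : E) (g : (Fin (D + 1) → E) → ℝ) :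
    𝔼 x : (Fin D → E) × (Fin D → E) × (Fin D → Fin D → E),
      g (rowC (grid c0 x.1 x.2.1 x.2.2) u) = 𝔼 C, g C := by
  rw [← expect_affine _ (gridrow_surj (E := E) hD hu) (rowC (grid c0 0 0 0) u) g]
  refine expect_congr rfl fun x _ => ?_
  rw [grid_eq]
  congr 1
  exact (rowHom u).map_add _ _

omit [Fintype Y] in
theorem expect_gridcol (hD : 1 ≤ D) {u : F} (hu : u ≠ 0) (c0 : E) (g : (Fin (D + 1) → E) → ℝ) :
    𝔼 x : (Fin D → E) × (Fin D → E) × (Fin D → Fin D → E),
      g (colC (grid c0 x.1 x.2.1 x.2.2) u) = 𝔼 C, g C := by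
  rw [← expect_affine _ (gridcol_surj (E := E) hD hu) (colC (grid c0 0 0 0) u) g]
  refine expect_congr rfl fun x _ => ?_
  rw [grid_eq]
  congr 1
  exact (colHom u).map_add _ _

/-- `delbar`: the average of `del` over the fibre. -/
noncomputable def delb {F : Type*} [Field F] [Fintype F] [Module F E] (D : ℕ)
    (r : ι → F →+ Y) (τ : Y → E → ZMod 2) (y : Y) : ℝ := 𝔼 i : ι, epsAt D τ (r i) y

omit [DecidableEq F] [Fintype Y] [Nonempty ι] in
theorem delb_eq (r : ι → F →+ Y) (τ : Y → E → ZMod 2) (y : Y) :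
    delb D r τ y = 𝔼 c : E, del D r τ y c := by
  simp only [delb, epsAt, del]
  simp only [expect_cons (M := E)]
  rw [Finset.expect_comm]

/-- Inequality (**), pointwise. -/
theorem dstar (hD : 1 ≤ D) (r : ι → F →+ Y) (τ : Y → E → ZMod 2) (y : Y) (c0 : E) :
    del D r τ y c0 * (1 - del D r τ y c0) ≤
      ∑ u ∈ univ.erase (0 : F), 𝔼 i : ι, delb D r τ (y + r i u) := by
  have hp : ∀ (i i' : ι) (x : (Fin D → E) × (Fin D → E) × (Fin D → Fin D → E)),
      bad τ (r i) y (Fin.cons c0 x.1 : Fin (D + 1) → E) *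
        (1 - bad τ (r i') y (Fin.cons c0 x.2.1 : Fin (D + 1) → E)) +
      (1 - bad τ (r i) y (Fin.cons c0 x.1 : Fin (D + 1) → E)) *
        bad τ (r i') y (Fin.cons c0 x.2.1 : Fin (D + 1) → E) ≤
      ∑ u ∈ univ.erase (0 : F), bad τ (r i) (y + r i' u)
        (rowC (grid c0 x.1 x.2.1 x.2.2) u) +
      ∑ u ∈ univ.erase (0 : F), bad τ (r i') (y + r i u)
        (colC (grid c0 x.1 x.2.1 x.2.2) u) := by
    intro i i' x
    have := parity_two (R := fun u' => tsum τ (r i) (y + r i' u')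
        (rowC (grid c0 x.1 x.2.1 x.2.2) u'))
      (C := fun u => tsum τ (r i') (y + r i u) (colC (grid c0 x.1 x.2.1 x.2.2) u))
      (grid_sum τ (r i) (r i') y _)
    simpa [bad, rowC_grid, colC_grid] using this
  have h := expect_mono fun i : ι => expect_mono fun i' : ι => expect_mono fun x => hp i i' x
  simp only [Finset.expect_add_distrib, Finset.expect_sum_comm] at h
  have e1 : ∀ (i i' : ι), (𝔼 x : (Fin D → E) × (Fin D → E) × (Fin D → Fin D → E),
      bad τ (r i) y (Fin.cons c0 x.1 : Fin (D + 1) → E) *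
        (1 - bad τ (r i') y (Fin.cons c0 x.2.1 : Fin (D + 1) → E))) =
      (𝔼 A : Fin D → E, bad τ (r i) y (Fin.cons c0 A : Fin (D + 1) → E)) *
        (1 - 𝔼 A : Fin D → E, bad τ (r i') y (Fin.cons c0 A : Fin (D + 1) → E)) := by
    intro i i'
    rw [expect_prod', Finset.expect_mul]
    refine expect_congr rfl fun A _ => ?_
    rw [expect_prod']
    simp only [Fintype.expect_const]
    rw [← Finset.mul_expect, Finset.expect_sub_distrib, Fintype.expect_const]
  have e2 : ∀ (i i' : ι), (𝔼 x : (Fin D → E) × (Fin D → E) × (Fin D → Fin D → E),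
      (1 - bad τ (r i) y (Fin.cons c0 x.1 : Fin (D + 1) → E)) *
        bad τ (r i') y (Fin.cons c0 x.2.1 : Fin (D + 1) → E)) =
      (1 - 𝔼 A : Fin D → E, bad τ (r i) y (Fin.cons c0 A : Fin (D + 1) → E)) *
        (𝔼 A : Fin D → E, bad τ (r i') y (Fin.cons c0 A : Fin (D + 1) → E)) := by
    intro i i'
    have : (1 - 𝔼 A : Fin D → E, bad τ (r i) y (Fin.cons c0 A : Fin (D + 1) → E)) =
        𝔼 A : Fin D → E, (1 - bad τ (r i) y (Fin.cons c0 A : Fin (D + 1) → E)) := by
      rw [Finset.expect_sub_distrib, Fintype.expect_const]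
    rw [this, expect_prod', Finset.expect_mul]
    refine expect_congr rfl fun A _ => ?_
    rw [expect_prod']
    simp only [Fintype.expect_const]
    rw [← Finset.mul_expect]
  have e3 : 𝔼 i : ι, 𝔼 i' : ι,
      (𝔼 A : Fin D → E, bad τ (r i) y (Fin.cons c0 A : Fin (D + 1) → E)) *
        (1 - 𝔼 A : Fin D → E, bad τ (r i') y (Fin.cons c0 A : Fin (D + 1) → E)) =
      del D r τ y c0 * (1 - del D r τ y c0) := by
    rw [← Finset.expect_mul_expect, Finset.expect_sub_distrib, Fintype.expect_const]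
    rfl
  have e4 : 𝔼 i : ι, 𝔼 i' : ι,
      (1 - 𝔼 A : Fin D → E, bad τ (r i) y (Fin.cons c0 A : Fin (D + 1) → E)) *
        (𝔼 A : Fin D → E, bad τ (r i') y (Fin.cons c0 A : Fin (D + 1) → E)) =
      (1 - del D r τ y c0) * del D r τ y c0 := by
    rw [← Finset.expect_mul_expect, Finset.expect_sub_distrib, Fintype.expect_const]
    rfl
  have e5 : ∑ u ∈ univ.erase (0 : F), 𝔼 i : ι, 𝔼 i' : ι,
      𝔼 x : (Fin D → E) × (Fin D → E) × (Fin D → Fin D → E), bad τ (r i) (y + r i' u)
        (rowC (grid c0 x.1 x.2.1 x.2.2) u) =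
      ∑ u ∈ univ.erase (0 : F), 𝔼 i : ι, delb D r τ (y + r i u) := by
    refine sum_congr rfl fun u hu => ?_
    rw [Finset.expect_comm]
    refine expect_congr rfl fun i' _ => expect_congr rfl fun i _ => ?_
    exact expect_gridrow hD (ne_of_mem_erase hu) c0 fun C => bad τ (r i) (y + r i' u) C
  have e6 : ∑ u ∈ univ.erase (0 : F), 𝔼 i : ι, 𝔼 i' : ι,
      𝔼 x : (Fin D → E) × (Fin D → E) × (Fin D → Fin D → E), bad τ (r i') (y + r i u)
        (colC (grid c0 x.1 x.2.1 x.2.2) u) =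
      ∑ u ∈ univ.erase (0 : F), 𝔼 i : ι, delb D r τ (y + r i u) := by
    refine sum_congr rfl fun u hu => ?_
    refine expect_congr rfl fun i _ => expect_congr rfl fun i' _ => ?_
    exact expect_gridcol hD (ne_of_mem_erase hu) c0 fun C => bad τ (r i') (y + r i u) C
  simp only [e1, e2, e3, e4, e5, e6] at h
  nlinarith

/-- Inequality (**), averaged. -/
theorem dstar_avg {q : ℕ} (hq : Fintype.card F = q) (hD : 1 ≤ D) (r : ι → F →+ Y)
    {A lam : ℝ} (hlam : 0 ≤ lam) (hM : Mix r A lam) (τ : Y → E → ZMod 2) :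
    𝔼 y : Y, 𝔼 c : E, del D r τ y c ^ 2 * (1 - del D r τ y c) ≤
      (q - 1) * (A * eps D r τ ^ 2 + lam * 𝔼 y : Y, 𝔼 c : E, del D r τ y c ^ 2) := by
  have h1 : ∀ y : Y, 𝔼 c : E, del D r τ y c ^ 2 * (1 - del D r τ y c) ≤
      ∑ u ∈ univ.erase (0 : F), 𝔼 i : ι, delb D r τ y * delb D r τ (y + r i u) := by
    intro y
    calc 𝔼 c : E, del D r τ y c ^ 2 * (1 - del D r τ y c)
        ≤ 𝔼 c : E, del D r τ y c *
            ∑ u ∈ univ.erase (0 : F), 𝔼 i : ι, delb D r τ (y + r i u) := by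
          refine expect_mono fun c => ?_
          have := mul_le_mul_of_nonneg_left (dstar (F := F) hD r τ y c)
            (del_nonneg (F := F) (D := D) r τ y c)
          linarith
      _ = _ := by
          rw [← Finset.expect_mul, ← delb_eq, mul_sum]
          exact sum_congr rfl fun u _ => by rw [Finset.mul_expect]
  refine (expect_mono h1).trans ?_
  rw [Finset.expect_sum_comm]
  have hcard : (#(univ.erase (0 : F)) : ℝ) = q - 1 := by
    have : 1 ≤ q := by rw [← hq]; exact Fintype.card_pos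
    rw [card_erase_of_mem (mem_univ _), card_univ, hq, Nat.cast_sub this, Nat.cast_one]
  rw [← hcard, ← nsmul_eq_mul, ← sum_const]
  refine sum_le_sum fun u hu => ?_
  rw [Finset.expect_comm]
  refine (hM (fun y => delb D r τ y) (fun y => expect_nn fun i => epsAt_nonneg _ _ _) u
    (ne_of_mem_erase hu)).trans ?_
  have e1 : 𝔼 y : Y, delb D r τ y = eps D r τ := by
    rw [eps_eq_del]
    exact expect_congr rfl fun y _ => delb_eq r τ y
  rw [e1]
  refine add_le_add le_rfl (mul_le_mul_of_nonneg_left ?_ hlam)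
  refine expect_mono fun y => ?_
  rw [delb_eq]
  have : Nonempty E := ⟨0⟩
  exact sq_expect_le _

end main

end Vale.Agent.P330.Q
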